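import Claimed.Agent.R316.Pack009

/-!
# Row 316 base layer, `BP-G0`, leaf `G0-7`: properness, compact balls, metric segments

Statements: helper97 (export file `Api.lean`, section 7).  Sub-captain of `BP-G0`: helper268.

RECIPE.
* relatively closed subsets of the carrier contained in a compact subset `K` of the carrier are compact: `S = K ∩ F`.
* `exists_isCompact_hcball`: `CMfd.exists_compact_nhdsWithin` gives a compact `K ∈ 𝓝[carrier] x`, `K ⊆ carrier`; `hasBasis_nhdsWithin_hball`: `hball x r ⊆ K`; `hcball x (r/2) ⊆ K` is relatively closed (`exists_isClosed_hcball`).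
* `exists_isCompact_hcball_uniform`: for `p ∈ K` let `hcball p (2 r_p)` be compact; finitely many `hball p r_p` cover `K` (they are relatively open: `exists_isOpen_hball`); `R := min r_p`;
  the set `T = {y | ∃ x ∈ K, d(x,y) ≤ R}` lies in the compact set `⋃ hcball p (2 r_p)`; it is closed in it: it is the projection of the compact set `{(x,y) ∈ K × K' | d(x,y) ≤ R}` (`continuousOn_hdist`).
* `g0_exists_point_on_curve`: intermediate value theorem for `t ↦ len γ 0 t`.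
* `exists_isCompact_hcball_gt`: `R < 0`: `R' = R/2` (empty balls).  `R ≥ 0`: `K = hcball x R`, `ρ` from the uniform lemma; `hcball x (R + ρ/2) ⊆ T_ρ`: a curve of length `< R + ρ` from `x` to `y`, the point `p` at length `min R (len)`.
* `exists_hdist_eq`: the image of the connected carrier under the continuous `d(o,·)` is an interval containing `0` and unbounded (otherwise `carrier = hcball o R'` compact).
* `exists_metric_segment` (TYCHONOFF, no dyadics): `l := d(x,y)`; `l = 0`: constant curve.  `l > 0`: `K' := hcball x R'` compact, `R' > l`.  In the compact space `Set.pi univ (fun _ : ℝ => K')` (`isCompact_univ_pi`) consider the closed sets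
  `C_{s,t,ε} = {γ | d(γ s, γ t) ≤ |s - t| + ε}`, `{γ | γ 0 = x}`, `{γ | γ l = y}`.  Finite intersections are nonempty: for `ε₀` = the smallest `ε` (and `l + ε₀ < R'`) take `γ₀` from `exists_curve_speed_le` with `L = l + ε₀`
  and `γ s := γ₀ (max 0 (min 1 (s / l)))`: `d(γ s, γ t) ≤ L |s/l - t/l|_{clamped} ≤ |s - t| + ε₀` for `s,t` ... (for `s,t` with clamped parameters `a ≤ b` in `[0,1]`: `d ≤ len γ₀ a b ≤ L (b - a)`, `b - a ≤ min 1 (|s-t|/l)`, so `L (b-a) ≤ |s-t| + ε₀`).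
  A point of the total intersection satisfies `d(γ s, γ t) ≤ |s - t|`, `γ 0 = x`, `γ l = y`; equality on `[0,l]` from `l ≤ d(x,γ s) + d(γ s,γ t) + d(γ t,y) ≤ s + (t - s) + (l - t)`.
* `exists_boundary_point`: curve of length `< d(x,y) + ε`, `T := sSup {t ∈ [0,1] | ∀ s ∈ [0,t], γ s ∈ O}`, `p := γ T`.
-/

set_option autoImplicit false
set_option linter.unusedSectionVars false
set_option linter.unusedVariables false
open scoped ContDiff ComplexOrder Topology
open MeasureTheory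

namespace Claimed.Agent.R316

variable {V : Type} [NormedAddCommGroup V] [NormedSpace ℝ V] [FiniteDimensional ℝ V]
variable {ι : Type} [Fintype ι] [DecidableEq ι]
variable {𝓜 : CMfd V ι} {h h' : HFam V ι}

/-! ### 7. Properness, minimizing curves -/

section proper

/-- a relatively closed subset of the carrier inside a compact subset of the carrier is compact. -/
theorem g0_isCompact_of_subset {S F K : Set V} (hK : IsCompact K) (hF : IsClosed F)
    (hS : S = 𝓜.carrier ∩ F) (hKM : K ⊆ 𝓜.carrier) (hSK : S ⊆ K) : IsCompact S := by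
  have : S = K ∩ F := by
    subst hS
    ext p
    constructor
    · intro hp
      exact ⟨hSK hp, hp.2⟩
    · intro hp
      exact ⟨hKM hp.1, hp.2⟩
  rw [this]
  exact hK.inter_right hF

/-- the point at length `ℓ` on a curve. -/
theorem g0_exists_point_on_curve (hm : IsMetric 𝓜 h) {γ : ℝ → V} (hγ : IsC1Curve 𝓜 γ) {ℓ : ℝ}
    (h0 : 0 ≤ ℓ) (h1 : ℓ ≤ len 𝓜 h γ 0 1) :
    ∃ t ∈ Set.Icc (0 : ℝ) 1, len 𝓜 h γ 0 t = ℓ ∧ hdist 𝓜 h (γ 0) (γ t) ≤ ℓ ∧
      hdist 𝓜 h (γ t) (γ 1) ≤ len 𝓜 h γ 0 1 - ℓ := by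
  have hc : Continuous (fun t => len 𝓜 h γ 0 t) :=
    continuous_iff_continuousAt.2 fun t => (hasDerivAt_len hm.toIsHForm hγ 0 t).continuousAt
  have hiv := intermediate_value_Icc (zero_le_one' ℝ) hc.continuousOn
  obtain ⟨t, ht, hte⟩ := hiv (show ℓ ∈ Set.Icc (len 𝓜 h γ 0 0) (len 𝓜 h γ 0 1) from
    ⟨by rw [len_self]; exact h0, h1⟩)
  simp only at hte
  refine ⟨t, ht, hte, ?_, ?_⟩
  · rw [← hte]
    exact hdist_le_len hm hγ ht.1
  · have := len_add hm.toIsHForm hγ 0 t 1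
    have h2 := hdist_le_len hm hγ ht.2
    linarith

theorem g0_clamp_bounds (p q : ℝ) :
    |max 0 (min 1 p) - max 0 (min 1 q)| ≤ |p - q| ∧ |max 0 (min 1 p) - max 0 (min 1 q)| ≤ 1 := by
  have hp0 : 0 ≤ max 0 (min 1 p) := le_max_left _ _
  have hq0 : 0 ≤ max 0 (min 1 q) := le_max_left _ _
  have hp1 : max 0 (min 1 p) ≤ 1 := max_le zero_le_one (min_le_left _ _)
  have hq1 : max 0 (min 1 q) ≤ 1 := max_le zero_le_one (min_le_left _ _)
  constructor
  · have h1 : |max 0 (min 1 p) - max 0 (min 1 q)| ≤ |min 1 p - min 1 q| := by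
      rw [max_comm 0, max_comm 0]
      exact abs_max_sub_max_le_abs _ _ _
    have h2 : |min 1 p - min 1 q| ≤ max |(1 : ℝ) - 1| |p - q| := abs_min_sub_min_le_max _ _ _ _
    rw [sub_self, abs_zero, max_eq_right (abs_nonneg _)] at h2
    exact h1.trans h2
  · rw [abs_le]
    constructor <;> linarith

/-- a speed bound gives a length bound. -/
theorem g0_len_le_of_speed_le (hm : IsMetric 𝓜 h) {γ : ℝ → V} {L : ℝ} (hL : 0 ≤ L)
    (hsp : ∀ t, ambQ 𝓜 h (γ t) (deriv γ t) ≤ L ^ 2) {a b : ℝ} (hab : a ≤ b) :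
    len 𝓜 h γ a b ≤ L * (b - a) := by
  have h2 := intervalIntegral.norm_integral_le_of_norm_le_const (a := a) (b := b) (C := L)
    (f := fun t => Real.sqrt (ambQ 𝓜 h (γ t) (deriv γ t))) (fun t _ => by
      rw [Real.norm_eq_abs, abs_of_nonneg (Real.sqrt_nonneg _)]
      exact (Real.sqrt_le_sqrt (hsp t)).trans (by rw [Real.sqrt_sq hL]))
  rw [abs_of_nonneg (sub_nonneg.2 hab)] at h2
  exact (le_abs_self _).trans h2

/-- approximate segments, defined on all of `ℝ` (clamped). -/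
theorem g0_exists_approx_segment (hm : IsMetric 𝓜 h) (hconn : IsConnected 𝓜.carrier) {x y : V}
    (hx : x ∈ 𝓜.carrier) (hy : y ∈ 𝓜.carrier) (hl : 0 < hdist 𝓜 h x y) {ε : ℝ} (hε : 0 < ε) :
    ∃ γ : ℝ → V, γ 0 = x ∧ γ (hdist 𝓜 h x y) = y ∧
      (∀ s, γ s ∈ hcball 𝓜 h x (hdist 𝓜 h x y + ε)) ∧
      ∀ s t, hdist 𝓜 h (γ s) (γ t) ≤ |s - t| + ε := by
  set l := hdist 𝓜 h x y with hldef
  obtain ⟨γ₀, hγ₀, h0, h1, hlt, hsp⟩ := exists_curve_speed_le hm hconn hx hy
    (L := l + ε) (by linarith)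
  have hL : 0 ≤ l + ε := by linarith
  have hcl : ∀ s : ℝ, max 0 (min 1 (s / l)) ∈ Set.Icc (0 : ℝ) 1 := fun s =>
    ⟨le_max_left _ _, max_le zero_le_one (min_le_left _ _)⟩
  have key : ∀ a b : ℝ, a ≤ b → hdist 𝓜 h (γ₀ a) (γ₀ b) ≤ (l + ε) * (b - a) := fun a b hab =>
    (hdist_le_len hm hγ₀ hab).trans (g0_len_le_of_speed_le hm hL hsp hab)
  have key2 : ∀ a b : ℝ, hdist 𝓜 h (γ₀ a) (γ₀ b) ≤ (l + ε) * |a - b| := by
    intro a b
    rcases le_total a b with hab | hab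
    · rw [abs_sub_comm, abs_of_nonneg (sub_nonneg.2 hab)]
      exact key a b hab
    · rw [abs_of_nonneg (sub_nonneg.2 hab), hdist_comm hm]
      exact key b a hab
  refine ⟨fun s => γ₀ (max 0 (min 1 (s / l))), ?_, ?_, ?_, ?_⟩
  · simp [h0]
  · simp only [div_self hl.ne', min_self]
    rw [max_eq_right zero_le_one, h1]
  · intro s
    refine ⟨hγ₀.2 _, ?_⟩
    rw [← h0]
    exact ((g0_hdist_le_of_curve hm hγ₀ (hcl s)).trans hlt.le)
  · intro s t
    obtain ⟨c1, c2⟩ := g0_clamp_bounds (s / l) (t / l)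
    refine (key2 _ _).trans ?_
    have c3 : l * |max 0 (min 1 (s / l)) - max 0 (min 1 (t / l))| ≤ |s - t| := by
      calc l * |max 0 (min 1 (s / l)) - max 0 (min 1 (t / l))| ≤ l * |s / l - t / l| :=
            mul_le_mul_of_nonneg_left c1 hl.le
        _ = |s - t| := by
            rw [← sub_div, abs_div, abs_of_pos hl]
            field_simp
    have c4 : ε * |max 0 (min 1 (s / l)) - max 0 (min 1 (t / l))| ≤ ε := by
      calc ε * |max 0 (min 1 (s / l)) - max 0 (min 1 (t / l))| ≤ ε * 1 :=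
            mul_le_mul_of_nonneg_left c2 hε.le
        _ = ε := mul_one _
    rw [add_mul]
    linarith

theorem IsProperMetric.isCompact_of_isClosed (hp : IsProperMetric 𝓜 h) {o : V} (ho : o ∈ 𝓜.carrier)
    {S F : Set V} {R : ℝ} (hF : IsClosed F) (hS : S = 𝓜.carrier ∩ F) (hb : S ⊆ hcball 𝓜 h o R) :
    IsCompact S :=
  g0_isCompact_of_subset (hp o ho R) hF hS (hcball_subset_carrier 𝓜 h o R) hb

/-- compact subsets are bounded. -/
theorem exists_hcball_of_isCompact (hm : IsMetric 𝓜 h) (hconn : IsConnected 𝓜.carrier) {o : V}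
    (ho : o ∈ 𝓜.carrier) {K : Set V} (hK : IsCompact K) (hKM : K ⊆ 𝓜.carrier) :
    ∃ R : ℝ, 0 < R ∧ K ⊆ hball 𝓜 h o R := by
  obtain ⟨C, hC⟩ := hK.exists_bound_of_continuousOn
    ((continuousOn_hdist_right hm hconn ho).mono hKM)
  refine ⟨|C| + 1, by positivity, fun y hy => ⟨hKM hy, ?_⟩⟩
  have h1 := hC y hy
  rw [Real.norm_eq_abs] at h1
  have h2 := le_abs_self (hdist 𝓜 h o y)
  have h3 := le_abs_self C
  linarith

/-- larger metrics are proper. -/
theorem IsProperMetric.mono (hm : IsMetric 𝓜 h) (hm' : IsMetric 𝓜 h') (hconn : IsConnected 𝓜.carrier)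
    (hle : leF 𝓜 h h') (hp : IsProperMetric 𝓜 h) : IsProperMetric 𝓜 h' := by
  intro x hx r
  obtain ⟨F, hF, hFe⟩ := exists_isClosed_hcball hm' hconn hx r
  refine hp.isCompact_of_isClosed hx hF hFe (R := r) fun y hy => ⟨hy.1, ?_⟩
  exact (hdist_mono hm hm' hle hconn hx hy.1).trans hy.2

/-- a function with compact sublevel sets which is Lipschitz makes the metric proper. -/
theorem isProperMetric_of_lipschitz_exhaustion (hm : IsMetric 𝓜 h) (hconn : IsConnected 𝓜.carrier)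
    {u : V → ℝ} {L : ℝ}
    (hlip : ∀ x ∈ 𝓜.carrier, ∀ y ∈ 𝓜.carrier, |u x - u y| ≤ L * hdist 𝓜 h x y)
    (hsub : ∀ c : ℝ, IsCompact {x | x ∈ 𝓜.carrier ∧ u x ≤ c}) : IsProperMetric 𝓜 h := by
  intro x hx r
  obtain ⟨F, hF, hFe⟩ := exists_isClosed_hcball hm hconn hx r
  refine g0_isCompact_of_subset (hsub (u x + |L| * r)) hF hFe (fun y hy => hy.1)
    fun y hy => ⟨hy.1, ?_⟩
  have h1 := (abs_le.1 (hlip x hx y hy.1)).1
  have h2 : L * hdist 𝓜 h x y ≤ |L| * r :=
    (mul_le_mul_of_nonneg_right (le_abs_self L) (hdist_nonneg 𝓜 h x y)).trans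
      (mul_le_mul_of_nonneg_left hy.2 (abs_nonneg L))
  linarith

/-- on a noncompact proper connected manifold every distance from `o` is attained. -/
theorem exists_hdist_eq (hm : IsMetric 𝓜 h) (hconn : IsConnected 𝓜.carrier)
    (hp : IsProperMetric 𝓜 h) (hnc : ¬ IsCompact 𝓜.carrier) {o : V} (ho : o ∈ 𝓜.carrier) {R : ℝ}
    (hR : 0 ≤ R) : ∃ y ∈ 𝓜.carrier, hdist 𝓜 h o y = R := by
  have hex : ∃ y ∈ 𝓜.carrier, R < hdist 𝓜 h o y := by
    by_contra hcon
    push Not at hcon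
    apply hnc
    have : 𝓜.carrier = hcball 𝓜 h o R :=
      Set.Subset.antisymm (fun y hy => ⟨hy, hcon y hy⟩) (hcball_subset_carrier 𝓜 h o R)
    rw [this]
    exact hp o ho R
  obtain ⟨y, hy, hRy⟩ := hex
  have hiv := hconn.isPreconnected.intermediate_value ho hy (continuousOn_hdist_right hm hconn ho)
  obtain ⟨p, hp1, hp2⟩ := hiv (show R ∈ Set.Icc (hdist 𝓜 h o o) (hdist 𝓜 h o y) from
    ⟨by rw [hdist_self ho]; exact hR, hRy.le⟩)
  exact ⟨p, hp1, hp2⟩

/-- small closed balls are compact. -/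
theorem exists_isCompact_hcball (hm : IsMetric 𝓜 h) (hconn : IsConnected 𝓜.carrier) {x : V}
    (hx : x ∈ 𝓜.carrier) : ∃ R : ℝ, 0 < R ∧ IsCompact (hcball 𝓜 h x R) := by
  obtain ⟨K, hK, hKM, hKn⟩ := 𝓜.exists_compact_nhdsWithin hx (Filter.univ_mem (f := 𝓝 x))
  obtain ⟨r, hr, hrK⟩ := (hasBasis_nhdsWithin_hball hm hconn hx).mem_iff.1 hKn
  obtain ⟨F, hF, hFe⟩ := exists_isClosed_hcball hm hconn hx (r / 2)
  refine ⟨r / 2, by positivity, g0_isCompact_of_subset hK hF hFe (fun y hy => (hKM hy).1) ?_⟩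
  intro y hy
  exact hrK ⟨hy.1, hy.2.trans_lt (by linarith)⟩

/-- uniformly on compact sets. -/
theorem exists_isCompact_hcball_uniform (hm : IsMetric 𝓜 h) (hconn : IsConnected 𝓜.carrier)
    {K : Set V} (hK : IsCompact K) (hKM : K ⊆ 𝓜.carrier) :
    ∃ R : ℝ, 0 < R ∧ IsCompact {y | y ∈ 𝓜.carrier ∧ ∃ x ∈ K, hdist 𝓜 h x y ≤ R} := by
  have key : ∃ R : ℝ, 0 < R ∧ ∃ K' : Set V, IsCompact K' ∧ K' ⊆ 𝓜.carrier ∧
      ∀ x ∈ K, ∀ y ∈ 𝓜.carrier, hdist 𝓜 h x y ≤ R → y ∈ K' := by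
    refine hK.induction_on (p := fun S => ∃ R : ℝ, 0 < R ∧ ∃ K' : Set V, IsCompact K' ∧
      K' ⊆ 𝓜.carrier ∧ ∀ x ∈ S, ∀ y ∈ 𝓜.carrier, hdist 𝓜 h x y ≤ R → y ∈ K') ?_ ?_ ?_ ?_
    · exact ⟨1, one_pos, ∅, isCompact_empty, Set.empty_subset _,
        fun x hx => absurd hx (Set.notMem_empty x)⟩
    · rintro S T hST ⟨R, hR, K', h1, h2, h3⟩
      exact ⟨R, hR, K', h1, h2, fun x hx => h3 x (hST hx)⟩
    · rintro S T ⟨R₁, hR₁, K₁, a1, a2, a3⟩ ⟨R₂, hR₂, K₂, b1, b2, b3⟩
      refine ⟨min R₁ R₂, lt_min hR₁ hR₂, K₁ ∪ K₂, a1.union b1, Set.union_subset a2 b2, ?_⟩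
      intro x hx y hy hd
      rcases hx with hx | hx
      · exact Or.inl (a3 x hx y hy (hd.trans (min_le_left _ _)))
      · exact Or.inr (b3 x hx y hy (hd.trans (min_le_right _ _)))
    · intro p hp
      obtain ⟨R, hR, hc⟩ := exists_isCompact_hcball hm hconn (hKM hp)
      refine ⟨hball 𝓜 h p (R / 2), nhdsWithin_mono p hKM
        ((hasBasis_nhdsWithin_hball hm hconn (hKM hp)).mem_of_mem (by positivity : 0 < R / 2)),
        R / 2, by positivity, _, hc, hcball_subset_carrier 𝓜 h p R, ?_⟩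
      intro x hx y hy hd
      refine ⟨hy, ?_⟩
      have := hdist_triangle hm hconn (hKM hp) hx.1 hy
      linarith [hx.2]
  obtain ⟨R, hR, K', hK', hK'M, H⟩ := key
  refine ⟨R, hR, ?_⟩
  have hcont : ContinuousOn (fun q : V × V => hdist 𝓜 h q.1 q.2) (K ×ˢ K') :=
    (continuousOn_hdist hm hconn).mono (Set.prod_mono hKM hK'M)
  have hcl : IsClosed ((K ×ˢ K') ∩ (fun q : V × V => hdist 𝓜 h q.1 q.2) ⁻¹' Set.Iic R) :=
    hcont.preimage_isClosed_of_isClosed (hK.prod hK').isClosed isClosed_Iic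
  have hcomp : IsCompact ((K ×ˢ K') ∩ (fun q : V × V => hdist 𝓜 h q.1 q.2) ⁻¹' Set.Iic R) :=
    (hK.prod hK').of_isClosed_subset hcl Set.inter_subset_left
  have he : {y | y ∈ 𝓜.carrier ∧ ∃ x ∈ K, hdist 𝓜 h x y ≤ R} =
      Prod.snd '' ((K ×ˢ K') ∩ (fun q : V × V => hdist 𝓜 h q.1 q.2) ⁻¹' Set.Iic R) := by
    ext y
    constructor
    · rintro ⟨hy, x, hx, hd⟩
      exact ⟨(x, y), ⟨⟨hx, H x hx y hy hd⟩, hd⟩, rfl⟩
    · rintro ⟨⟨x, y'⟩, ⟨⟨hx, hy'⟩, hd⟩, rfl⟩
      exact ⟨hK'M hy', x, hx, hd⟩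
  rw [he]
  exact hcomp.image continuous_snd

/-- the radius of compactness is open (Hopf-Rinow-Cohn-Vossen step). -/
theorem exists_isCompact_hcball_gt (hm : IsMetric 𝓜 h) (hconn : IsConnected 𝓜.carrier) {x : V}
    (hx : x ∈ 𝓜.carrier) {R : ℝ} (hc : IsCompact (hcball 𝓜 h x R)) :
    ∃ R' : ℝ, R < R' ∧ IsCompact (hcball 𝓜 h x R') := by
  rcases lt_or_ge R 0 with hR | hR
  · refine ⟨R / 2, by linarith, ?_⟩
    have : hcball 𝓜 h x (R / 2) = ∅ := by
      ext y
      simp only [Set.mem_empty_iff_false, iff_false]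
      intro hy
      have := hdist_nonneg 𝓜 h x y
      linarith [hy.2]
    rw [this]
    exact isCompact_empty
  · obtain ⟨ρ, hρ, hT⟩ := exists_isCompact_hcball_uniform hm hconn hc
      (hcball_subset_carrier 𝓜 h x R)
    obtain ⟨F, hF, hFe⟩ := exists_isClosed_hcball hm hconn hx (R + ρ / 2)
    refine ⟨R + ρ / 2, by linarith, g0_isCompact_of_subset hT hF hFe (fun y hy => hy.1) ?_⟩
    intro y hy
    refine ⟨hy.1, ?_⟩
    obtain ⟨γ, hγ, h0, h1, hlt⟩ := g0_exists_curve_lt (h := h) hconn hx hy.1 (L := R + ρ)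
      (by linarith [hy.2])
    obtain ⟨t, ht, -, d1, d2⟩ := g0_exists_point_on_curve hm hγ
      (ℓ := min R (len 𝓜 h γ 0 1)) (le_min hR (len_nonneg 𝓜 h γ zero_le_one)) (min_le_right _ _)
    rw [h0] at d1
    rw [h1] at d2
    refine ⟨γ t, ⟨hγ.2 t, d1.trans (min_le_left _ _)⟩, d2.trans ?_⟩
    rcases le_total R (len 𝓜 h γ 0 1) with hle | hle
    · rw [min_eq_left hle]
      linarith
    · rw [min_eq_right hle]
      linarith

/-- **metric minimizing curves**: if the closed ball of radius `d(x,y)` about `x` is compact, there is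
a curve `γ : [0,l] → M` from `x` to `y` with `d(γ s, γ t) = |s - t|`. -/
theorem exists_metric_segment (hm : IsMetric 𝓜 h) (hconn : IsConnected 𝓜.carrier) {x y : V}
    (hx : x ∈ 𝓜.carrier) (hy : y ∈ 𝓜.carrier) (hc : IsCompact (hcball 𝓜 h x (hdist 𝓜 h x y))) :
    ∃ γ : ℝ → V, γ 0 = x ∧ γ (hdist 𝓜 h x y) = y ∧
      (∀ s ∈ Set.Icc 0 (hdist 𝓜 h x y), γ s ∈ 𝓜.carrier) ∧
      ∀ s ∈ Set.Icc 0 (hdist 𝓜 h x y), ∀ t ∈ Set.Icc 0 (hdist 𝓜 h x y),
        hdist 𝓜 h (γ s) (γ t) = |s - t| := by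
  set l := hdist 𝓜 h x y with hldef
  rcases (hdist_nonneg 𝓜 h x y).eq_or_lt with hl0 | hl
  · have hxy : x = y := (hdist_eq_zero_iff hm hconn hx hy).1 hl0.symm
    refine ⟨fun _ => x, rfl, hxy, fun _ _ => hx, fun s hs t ht => ?_⟩
    have hl00 : l = 0 := hl0.symm
    rw [hl00] at hs ht
    have hs0 : s = 0 := le_antisymm hs.2 hs.1
    have ht0 : t = 0 := le_antisymm ht.2 ht.1
    simp [hs0, ht0, hdist_self hx]
  · obtain ⟨R', hR', hK'⟩ := exists_isCompact_hcball_gt hm hconn hx hc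
    set K' := hcball 𝓜 h x R' with hK'def
    have hK'M : K' ⊆ 𝓜.carrier := hcball_subset_carrier 𝓜 h x R'
    set P : Set (ℝ → V) := Set.pi Set.univ (fun _ => K') with hP
    have hPc : IsCompact P := isCompact_univ_pi fun _ => hK'
    set e : ℕ → ℝ := fun n => min (1 / ((n : ℝ) + 1)) (R' - l) with he
    have he0 : ∀ n, 0 < e n := fun n => lt_min (by positivity) (by linarith)
    choose g g0 g1 g2 g3 using fun n => g0_exists_approx_segment hm hconn hx hy hl (he0 n)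
    have hgP : ∀ n, g n ∈ P := fun n s _ =>
      hcball_mono 𝓜 h x (by have := min_le_right (1 / ((n : ℝ) + 1)) (R' - l); linarith) (g2 n s)
    obtain ⟨γ, hγP, hγc⟩ := hPc.exists_mapClusterPt (f := Filter.atTop) (u := g)
      (Filter.le_principal_iff.2 (Filter.mem_map.2 (Filter.Eventually.of_forall hgP)))
    have hmemcl : ∀ C : Set (ℝ → V), IsClosed C → (∀ᶠ n in Filter.atTop, g n ∈ C) → γ ∈ C := by
      intro C hC hev
      exact isClosed_iff_clusterPt.1 hC γ (ClusterPt.mono hγc (Filter.le_principal_iff.2 hev))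
    have hγ0 : γ 0 = x :=
      hmemcl {F | F 0 = x} (isClosed_eq (continuous_apply 0) continuous_const)
        (Filter.Eventually.of_forall g0)
    have hγl : γ l = y :=
      hmemcl {F | F l = y} (isClosed_eq (continuous_apply l) continuous_const)
        (Filter.Eventually.of_forall g1)
    have hγM : ∀ s, γ s ∈ 𝓜.carrier := fun s => hK'M (hγP s (Set.mem_univ s))
    have hle : ∀ s t, hdist 𝓜 h (γ s) (γ t) ≤ |s - t| := by
      intro s t
      refine le_of_forall_pos_le_add fun ε hε => ?_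
      have hcont : ContinuousOn (fun F : ℝ → V => hdist 𝓜 h (F s) (F t)) P :=
        (continuousOn_hdist hm hconn).comp (f := fun F : ℝ → V => (F s, F t))
          ((continuous_apply s).prodMk (continuous_apply t)).continuousOn
          (fun F hF => ⟨hK'M (hF s (Set.mem_univ s)), hK'M (hF t (Set.mem_univ t))⟩)
      have hcl : IsClosed (P ∩ (fun F : ℝ → V => hdist 𝓜 h (F s) (F t)) ⁻¹' Set.Iic (|s - t| + ε)) :=
        hcont.preimage_isClosed_of_isClosed hPc.isClosed isClosed_Iic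
      have hev : ∀ᶠ n in Filter.atTop, g n ∈
          P ∩ (fun F : ℝ → V => hdist 𝓜 h (F s) (F t)) ⁻¹' Set.Iic (|s - t| + ε) := by
        have hlim : Filter.Tendsto (fun n : ℕ => 1 / ((n : ℝ) + 1)) Filter.atTop (𝓝 0) :=
          tendsto_one_div_add_atTop_nhds_zero_nat
        filter_upwards [hlim.eventually (gt_mem_nhds hε)] with n hn
        refine ⟨hgP n, ?_⟩
        have h1 := g3 n s t
        have h2 : e n ≤ 1 / ((n : ℝ) + 1) := min_le_left _ _
        show hdist 𝓜 h (g n s) (g n t) ≤ |s - t| + ε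
        linarith
      exact (hmemcl _ hcl hev).2
    refine ⟨γ, hγ0, hγl, fun s _ => hγM s, ?_⟩
    have hge : ∀ s ∈ Set.Icc 0 l, ∀ t ∈ Set.Icc 0 l, s ≤ t → t - s ≤ hdist 𝓜 h (γ s) (γ t) := by
      intro s hs t ht hst
      have a1 := hdist_triangle hm hconn hx (hγM s) hy
      have a2 := hdist_triangle hm hconn (hγM s) (hγM t) hy
      have b1 := hle 0 s
      have b2 := hle t l
      rw [hγ0, zero_sub, abs_neg, abs_of_nonneg hs.1] at b1
      rw [hγl, abs_sub_comm, abs_of_nonneg (sub_nonneg.2 ht.2)] at b2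
      linarith
    intro s hs t ht
    refine le_antisymm (hle s t) ?_
    rcases le_total s t with hst | hst
    · rw [abs_sub_comm, abs_of_nonneg (sub_nonneg.2 hst)]
      exact hge s hs t ht hst
    · rw [abs_of_nonneg (sub_nonneg.2 hst), hdist_comm hm]
      exact hge t ht s hs hst

/-- distance to a compact set is attained. -/
theorem exists_hdist_eq_iInf (hm : IsMetric 𝓜 h) (hconn : IsConnected 𝓜.carrier) {x : V}
    (hx : x ∈ 𝓜.carrier) {K : Set V} (hK : IsCompact K) (hKM : K ⊆ 𝓜.carrier) (hne : K.Nonempty) :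
    ∃ y ∈ K, ∀ y' ∈ K, hdist 𝓜 h x y ≤ hdist 𝓜 h x y' := by
  obtain ⟨y, hy, hmin⟩ := hK.exists_isMinOn hne ((continuousOn_hdist_right hm hconn hx).mono hKM)
  exact ⟨y, hy, fun y' hy' => hmin hy'⟩

/-- a curve from the inside to the outside of a relatively open set meets its relative boundary:
distance version.  `D = 𝓜.carrier ∩ O`, `x ∈ D`, `y ∉ D`: there is `p ∈ M \ O` in the closure of `D`
with `d(x,p) + d(p,y) ≤ d(x,y) + ε`. -/
theorem exists_boundary_point (hm : IsMetric 𝓜 h) (hconn : IsConnected 𝓜.carrier) {O : Set V}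
    (hO : IsOpen O) {x y : V} (hx : x ∈ 𝓜.carrier ∩ O) (hy : y ∈ 𝓜.carrier) (hyO : y ∉ O) {ε : ℝ}
    (hε : 0 < ε) : ∃ p ∈ 𝓜.carrier, p ∉ O ∧ p ∈ closure (𝓜.carrier ∩ O) ∧
      hdist 𝓜 h x p + hdist 𝓜 h p y ≤ hdist 𝓜 h x y + ε := by
  obtain ⟨γ, hγ, h0, h1, hlt⟩ := g0_exists_curve_lt (h := h) hconn hx.1 hy
    (L := hdist 𝓜 h x y + ε) (by linarith)
  have hγc : Continuous γ := hγ.1.continuous
  set A : Set ℝ := Set.Icc 0 1 ∩ γ ⁻¹' Oᶜ with hA
  have hAcl : IsClosed A := isClosed_Icc.inter (hO.isClosed_compl.preimage hγc)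
  have hAne : A.Nonempty := ⟨1, ⟨zero_le_one, le_rfl⟩, by simpa [h1] using hyO⟩
  have hAbd : BddBelow A := ⟨0, fun t ht => ht.1.1⟩
  have hT : sInf A ∈ A := hAcl.csInf_mem hAne hAbd
  set T := sInf A with hTdef
  have hTpos : 0 < T := by
    rcases hT.1.1.eq_or_lt with h | h
    · exfalso
      have := hT.2
      rw [← h] at this
      exact this (by rw [h0]; exact hx.2)
    · exact h
  have hbelow : ∀ t, 0 ≤ t → t < T → γ t ∈ 𝓜.carrier ∩ O := by
    intro t ht0 htT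
    refine ⟨hγ.2 t, ?_⟩
    by_contra hcon
    have : t ∈ A := ⟨⟨ht0, htT.le.trans hT.1.2⟩, hcon⟩
    exact absurd (csInf_le hAbd this) (not_le.2 htT)
  refine ⟨γ T, hγ.2 T, hT.2, ?_, ?_⟩
  · have htend : Filter.Tendsto γ (𝓝[<] T) (𝓝 (γ T)) :=
      (hγc.tendsto T).mono_left nhdsWithin_le_nhds
    refine mem_closure_of_tendsto htend ?_
    filter_upwards [Ioo_mem_nhdsLT hTpos] with t ht
    exact hbelow t ht.1.le ht.2
  · have a1 := hdist_le_len hm hγ hT.1.1
    have a2 := hdist_le_len hm hγ hT.1.2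
    have a3 := len_add hm.toIsHForm hγ 0 T 1
    rw [h0] at a1
    rw [h1] at a2
    linarith

end proper

end Claimed.Agent.R316
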